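import Mathlib

/-!
# The number of halving lines of a pencil is odd

`2k+1` pairwise independent vectors `(a u, b u)` of the plane, `a u ≠ 0`.  `c u` = number of `w` with
`0 < a u * b w - a w * b u`.  Then the number of `u` with `c u = k` is odd.
-/

namespace Vale.Agent.P040.Sph52

open Finset

/-- level before the `i`-th step -/
def FF (m : ℕ) (s : ℕ → Bool) (i : ℕ) : ℕ :=
  ((range m).filter fun j => i ≤ j ∧ s j = true).card + ((range m).filter fun j => j < i ∧ s j = false).card

/-- level on the `i`-th step -/
def HH (m : ℕ) (s : ℕ → Bool) (i : ℕ) : ℕ :=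
  ((range m).filter fun j => i < j ∧ s j = true).card + ((range m).filter fun j => j < i ∧ s j = false).card

lemma FF_eq (m : ℕ) (s : ℕ → Bool) {i : ℕ} (hi : i < m) :
    FF m s i = HH m s i + (if s i = true then 1 else 0) := by
  unfold FF HH
  have h : ((range m).filter fun j => i ≤ j ∧ s j = true).card =
      ((range m).filter fun j => i < j ∧ s j = true).card + (if s i = true then 1 else 0) := by
    by_cases hs : s i = true
    · rw [if_pos hs]
      have : ((range m).filter fun j => i ≤ j ∧ s j = true) =
          insert i ((range m).filter fun j => i < j ∧ s j = true) := by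
        ext j
        simp only [mem_filter, mem_range, mem_insert]
        constructor
        · rintro ⟨h1, h2, h3⟩
          rcases Nat.eq_or_lt_of_le h2 with h | h
          · left; exact h.symm
          · right; exact ⟨h1, h, h3⟩
        · rintro (h | ⟨h1, h2, h3⟩)
          · subst h; exact ⟨hi, le_refl _, hs⟩
          · exact ⟨h1, h2.le, h3⟩
      rw [this, card_insert_of_notMem]
      simp
    · rw [if_neg hs, add_zero]
      congr 1
      ext j
      simp only [mem_filter, mem_range]
      constructor
      · rintro ⟨h1, h2, h3⟩
        refine ⟨h1, ?_, h3⟩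
        rcases Nat.eq_or_lt_of_le h2 with h | h
        · subst h; exact absurd h3 hs
        · exact h
      · rintro ⟨h1, h2, h3⟩
        exact ⟨h1, h2.le, h3⟩
  omega

lemma FF_succ (m : ℕ) (s : ℕ → Bool) {i : ℕ} (hi : i < m) :
    FF m s (i + 1) = HH m s i + (if s i = true then 0 else 1) := by
  unfold FF HH
  have h1 : ((range m).filter fun j => i + 1 ≤ j ∧ s j = true) =
      ((range m).filter fun j => i < j ∧ s j = true) := by
    ext j; simp only [mem_filter, mem_range, Nat.succ_le_iff]
  have h : ((range m).filter fun j => j < i + 1 ∧ s j = false).card =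
      ((range m).filter fun j => j < i ∧ s j = false).card + (if s i = true then 0 else 1) := by
    by_cases hs : s i = true
    · rw [if_pos hs, add_zero]
      congr 1
      ext j
      simp only [mem_filter, mem_range]
      constructor
      · rintro ⟨h1, h2, h3⟩
        refine ⟨h1, ?_, h3⟩
        rcases Nat.eq_or_lt_of_le (Nat.lt_succ_iff.mp h2) with h | h
        · subst h; rw [hs] at h3; exact absurd h3 (by simp)
        · exact h
      · rintro ⟨h1, h2, h3⟩
        exact ⟨h1, by omega, h3⟩
    · rw [if_neg hs]
      have hs' : s i = false := by simpa using hs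
      have : ((range m).filter fun j => j < i + 1 ∧ s j = false) =
          insert i ((range m).filter fun j => j < i ∧ s j = false) := by
        ext j
        simp only [mem_filter, mem_range, mem_insert]
        constructor
        · rintro ⟨h1, h2, h3⟩
          rcases Nat.eq_or_lt_of_le (Nat.lt_succ_iff.mp h2) with h | h
          · left; exact h
          · right; exact ⟨h1, h, h3⟩
        · rintro (h | ⟨h1, h2, h3⟩)
          · subst h; exact ⟨hi, by omega, hs'⟩
          · exact ⟨h1, by omega, h3⟩
      rw [this, card_insert_of_notMem]
      simp
  rw [h1, h]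
  omega

/-- parity of the number of threshold crossings among the first `n` steps -/
lemma walk_parity (m k : ℕ) (s : ℕ → Bool) (n : ℕ) (hn : n ≤ m) :
    (((range n).filter fun i => HH m s i = k).card + (if FF m s 0 ≤ k then 1 else 0) +
      (if FF m s n ≤ k then 1 else 0)) % 2 = 0 := by
  induction n with
  | zero => simp; split_ifs <;> simp
  | succ n ih =>
    have hn' : n < m := hn
    have ih' := ih (by omega)
    have e1 := FF_eq m s hn'
    have e2 := FF_succ m s hn'
    rw [range_add_one, filter_insert]
    by_cases hs : s n = true
    · rw [if_pos hs] at e1 e2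
      by_cases hk : HH m s n = k
      · rw [if_pos hk, card_insert_of_notMem (by simp)]
        have a1 : ¬ FF m s n ≤ k := by omega
        have a2 : FF m s (n + 1) ≤ k := by omega
        rw [if_neg a1] at ih'
        rw [if_pos a2]
        omega
      · rw [if_neg hk]
        have a : FF m s n ≤ k ↔ FF m s (n + 1) ≤ k := by omega
        by_cases a1 : FF m s n ≤ k
        · rw [if_pos a1] at ih'; rw [if_pos (a.mp a1)]; exact ih'
        · rw [if_neg a1] at ih'; rw [if_neg (fun h => a1 (a.mpr h))]; exact ih'
    · rw [if_neg hs] at e1 e2
      by_cases hk : HH m s n = k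
      · rw [if_pos hk, card_insert_of_notMem (by simp)]
        have a1 : FF m s n ≤ k := by omega
        have a2 : ¬ FF m s (n + 1) ≤ k := by omega
        rw [if_pos a1] at ih'
        rw [if_neg a2]
        omega
      · rw [if_neg hk]
        have a : FF m s n ≤ k ↔ FF m s (n + 1) ≤ k := by omega
        by_cases a1 : FF m s n ≤ k
        · rw [if_pos a1] at ih'; rw [if_pos (a.mp a1)]; exact ih'
        · rw [if_neg a1] at ih'; rw [if_neg (fun h => a1 (a.mpr h))]; exact ih'

/-- combinatorial core: the number of steps at the median level is odd -/
theorem odd_median_steps (k : ℕ) (s : ℕ → Bool) :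
    Odd ((range (2 * k + 1)).filter fun i => HH (2 * k + 1) s i = k).card := by
  have h := walk_parity (2 * k + 1) k s (2 * k + 1) le_rfl
  have h0 : FF (2 * k + 1) s 0 = ((range (2 * k + 1)).filter fun j => s j = true).card := by
    unfold FF; simp
  have h1 : FF (2 * k + 1) s (2 * k + 1) = ((range (2 * k + 1)).filter fun j => s j = false).card := by
    unfold FF
    have e1 : ((range (2 * k + 1)).filter fun j => 2 * k + 1 ≤ j ∧ s j = true) = ∅ := by
      rw [filter_eq_empty_iff]; intro j hj; rw [mem_range] at hj; omega
    have e2 : ((range (2 * k + 1)).filter fun j => j < 2 * k + 1 ∧ s j = false) =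
        ((range (2 * k + 1)).filter fun j => s j = false) := by
      apply filter_congr; intro j hj; rw [mem_range] at hj; simp [hj]
    rw [e1, e2]; simp
  have h2 : ((range (2 * k + 1)).filter fun j => s j = true).card +
      ((range (2 * k + 1)).filter fun j => s j = false).card = 2 * k + 1 := by
    have := Finset.card_filter_add_card_filter_not (s := range (2 * k + 1)) (fun j => s j = true)
    simpa using this
  rw [h0, h1] at h
  rw [Nat.odd_iff]
  split_ifs at h <;> omega

end Vale.Agent.P040.Sph52
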