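import Vale.Agent.P040.Sph52.Odd

/-!
# The number of halving lines of a pencil is odd (real version)
-/

namespace Vale.Agent.P040.Sph52

open Finset

/-- reindexing a filter of `range m` by a permutation of `Fin m` -/
lemma card_filter_perm (m : ℕ) (σ : Equiv.Perm (Fin m)) (p : ℕ → Prop) [DecidablePred p] :
    ((range m).filter p).card =
      ((range m).filter fun j => ∃ h : j < m, p (σ ⟨j, h⟩ : ℕ)).card := by
  classical
  symm
  apply card_bij (fun j hj => ((σ ⟨j, mem_range.mp (mem_filter.mp hj).1⟩ : Fin m) : ℕ))
  · intro j hj
    obtain ⟨h1, h2, h3⟩ := mem_filter.mp hj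
    exact mem_filter.mpr ⟨mem_range.mpr (Fin.is_lt _), h3⟩
  · intro j hj j' hj' h
    have := σ.injective (Fin.ext h)
    exact congrArg Fin.val this
  · intro w hw
    obtain ⟨h1, h2⟩ := mem_filter.mp hw
    rw [mem_range] at h1
    refine ⟨(σ.symm ⟨w, h1⟩ : Fin m), ?_, ?_⟩
    · refine mem_filter.mpr ⟨mem_range.mpr (Fin.is_lt _), Fin.is_lt _, ?_⟩
      simpa using h2
    · simp

lemma card_gt_split (m i : ℕ) (hi : i < m) (s : ℕ → Bool) :
    ((range m).filter fun j => i < j ∧ s j = true).card +
      ((range m).filter fun j => i < j ∧ s j = false).card = m - 1 - i := by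
  have h1 : ((range m).filter fun j => i < j ∧ s j = true) =
      ((range m).filter fun j => i < j).filter fun j => s j = true := by
    rw [filter_filter]
  have h2 : ((range m).filter fun j => i < j ∧ s j = false) =
      ((range m).filter fun j => i < j).filter fun j => ¬ s j = true := by
    rw [filter_filter]; apply filter_congr; intro j _; simp
  rw [h1, h2, Finset.card_filter_add_card_filter_not]
  have : (range m).filter (fun j => i < j) = Ioo i m := by
    ext j; simp only [mem_filter, mem_range, mem_Ioo]; omega
  rw [this, Nat.card_Ioo]; omega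

lemma card_lt_split (m i : ℕ) (hi : i < m) (s : ℕ → Bool) :
    ((range m).filter fun j => j < i ∧ s j = true).card +
      ((range m).filter fun j => j < i ∧ s j = false).card = i := by
  have h1 : ((range m).filter fun j => j < i ∧ s j = true) =
      ((range m).filter fun j => j < i).filter fun j => s j = true := by
    rw [filter_filter]
  have h2 : ((range m).filter fun j => j < i ∧ s j = false) =
      ((range m).filter fun j => j < i).filter fun j => ¬ s j = true := by
    rw [filter_filter]; apply filter_congr; intro j _; simp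
  rw [h1, h2, Finset.card_filter_add_card_filter_not]
  have : (range m).filter (fun j => j < i) = range i := by
    ext j; simp only [mem_filter, mem_range]; omega
  rw [this, card_range]

/-- `2k+1` pairwise independent plane vectors `(a u, b u)` with `a u ≠ 0`: the number of `u` having exactly
`k` of the others on the positive side is odd. -/
theorem odd_halving (k : ℕ) (a b : ℕ → ℝ) (ha : ∀ u < 2 * k + 1, a u ≠ 0)
    (hab : ∀ u < 2 * k + 1, ∀ w < 2 * k + 1, u ≠ w → a u * b w - a w * b u ≠ 0) :
    Odd ((range (2 * k + 1)).filter fun u =>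
      ((range (2 * k + 1)).filter fun w => 0 < a u * b w - a w * b u).card = k).card := by
  classical
  set m := 2 * k + 1 with hm
  set φ : Fin m → ℝ := fun i => b i / a i with hφ
  have hφinj : Function.Injective φ := by
    intro i j h
    by_contra hne
    have hne' : (i : ℕ) ≠ j := fun h' => hne (Fin.ext h')
    apply hab i i.2 j j.2 hne'
    have hi := ha i i.2
    have hj := ha j j.2
    simp only [hφ] at h
    rw [div_eq_div_iff hi hj] at h
    linarith
  set σ : Equiv.Perm (Fin m) := Tuple.sort φ with hσ
  have hmono : StrictMono (φ ∘ σ) :=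
    (Tuple.monotone_sort φ).strictMono_of_injective (hφinj.comp σ.injective)
  set s : ℕ → Bool := fun j => if h : j < m then decide (0 < a (σ ⟨j, h⟩ : ℕ)) else false with hs
  have hsT : ∀ j (h : j < m), s j = true ↔ 0 < a (σ ⟨j, h⟩ : ℕ) := by
    intro j h; simp only [hs, dif_pos h, decide_eq_true_eq]
  have hsF : ∀ j (h : j < m), s j = false ↔ a (σ ⟨j, h⟩ : ℕ) < 0 := by
    intro j h
    simp only [hs, dif_pos h, decide_eq_false_iff_not, not_lt]
    exact ⟨fun h' => lt_of_le_of_ne h' (ha _ (Fin.is_lt _)), le_of_lt⟩
  -- sign of the determinant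
  have hsign : ∀ i (hi : i < m) j (hj : j < m),
      (0 < a (σ ⟨i, hi⟩ : ℕ) * b (σ ⟨j, hj⟩ : ℕ) - a (σ ⟨j, hj⟩ : ℕ) * b (σ ⟨i, hi⟩ : ℕ)) ↔
        ((i < j ∧ s j = s i) ∨ (j < i ∧ s j ≠ s i)) := by
    intro i hi j hj
    set u := (σ ⟨i, hi⟩ : Fin m) with hu
    set w := (σ ⟨j, hj⟩ : Fin m) with hw
    have hau := ha u u.2
    have haw := ha w w.2
    have key : a u * b w - a w * b u = a u * a w * (φ w - φ u) := by
      simp only [hφ]; field_simp
    rw [key]
    have hsi := hsT i hi
    have hsj := hsT j hj
    have hsi' := hsF i hi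
    have hsj' := hsF j hj
    rcases lt_trichotomy i j with hij | hij | hij
    · have hlt : φ u < φ w := hmono (show (⟨i, hi⟩ : Fin m) < ⟨j, hj⟩ from hij)
      have hpos : 0 < φ w - φ u := by linarith
      rw [mul_pos_iff_of_pos_right hpos]
      constructor
      · intro h
        left
        refine ⟨hij, ?_⟩
        rcases mul_pos_iff.mp h with ⟨h1, h2⟩ | ⟨h1, h2⟩
        · rw [hsi.mpr h1, hsj.mpr h2]
        · rw [hsi'.mpr h1, hsj'.mpr h2]
      · rintro (⟨_, h⟩ | ⟨h, _⟩)
        · cases hc : s i
          · rw [hc] at h
            exact mul_pos_of_neg_of_neg (hsi'.mp hc) (hsj'.mp h)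
          · rw [hc] at h
            exact mul_pos (hsi.mp hc) (hsj.mp h)
        · omega
    · subst hij
      have huw : w = u := rfl
      rw [huw, sub_self, mul_zero]
      simp
    · have hlt : φ w < φ u := hmono (show (⟨j, hj⟩ : Fin m) < ⟨i, hi⟩ from hij)
      have hneg : φ w - φ u < 0 := by linarith
      constructor
      · intro h
        right
        refine ⟨hij, ?_⟩
        have h' : a u * a w < 0 := by
          by_contra hc
          push Not at hc
          have := mul_nonpos_of_nonneg_of_nonpos hc hneg.le
          linarith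
        intro he
        cases hc : s i
        · rw [hc] at he
          have := mul_pos_of_neg_of_neg (hsi'.mp hc) (hsj'.mp he)
          linarith
        · rw [hc] at he
          have := mul_pos (hsi.mp hc) (hsj.mp he)
          linarith
      · rintro (⟨h, _⟩ | ⟨_, h⟩)
        · omega
        · apply mul_pos_of_neg_of_neg _ hneg
          cases hc : s i
          · have hj' : s j = true := by
              cases hd : s j
              · exact absurd (hd.trans hc.symm) h
              · rfl
            exact mul_neg_of_neg_of_pos (hsi'.mp hc) (hsj.mp hj')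
          · have hj' : s j = false := by
              cases hd : s j
              · rfl
              · exact absurd (hd.trans hc.symm) h
            exact mul_neg_of_pos_of_neg (hsi.mp hc) (hsj'.mp hj')
  -- the count for u = σ i
  have hcount : ∀ i (hi : i < m),
      (((range m).filter fun w => 0 < a (σ ⟨i, hi⟩ : ℕ) * b w - a w * b (σ ⟨i, hi⟩ : ℕ)).card = k ↔
        HH m s i = k) := by
    intro i hi
    rw [card_filter_perm m σ]
    have e1 : ((range m).filter fun j => ∃ h : j < m,
        0 < a (σ ⟨i, hi⟩ : ℕ) * b (σ ⟨j, h⟩ : ℕ) - a (σ ⟨j, h⟩ : ℕ) * b (σ ⟨i, hi⟩ : ℕ)) =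
        ((range m).filter fun j => i < j ∧ s j = s i) ∪ ((range m).filter fun j => j < i ∧ s j ≠ s i) := by
      ext j
      simp only [mem_filter, mem_range, mem_union]
      constructor
      · rintro ⟨h1, h2, h3⟩
        rcases (hsign i hi j h2).mp h3 with h | h
        · left; exact ⟨h1, h⟩
        · right; exact ⟨h1, h⟩
      · rintro (⟨h1, h⟩ | ⟨h1, h⟩)
        · exact ⟨h1, h1, (hsign i hi j h1).mpr (Or.inl h)⟩
        · exact ⟨h1, h1, (hsign i hi j h1).mpr (Or.inr h)⟩
    have hdisj : Disjoint ((range m).filter fun j => i < j ∧ s j = s i)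
        ((range m).filter fun j => j < i ∧ s j ≠ s i) := by
      rw [Finset.disjoint_left]
      intro j h1 h2
      have := (mem_filter.mp h1).2.1
      have := (mem_filter.mp h2).2.1
      omega
    rw [e1, card_union_of_disjoint hdisj]
    have g1 := card_gt_split m i hi s
    have g2 := card_lt_split m i hi s
    unfold HH
    cases hc : s i
    · have f1 : ((range m).filter fun j => j < i ∧ s j ≠ false) =
          ((range m).filter fun j => j < i ∧ s j = true) := by
        apply filter_congr; intro j _; simp
      rw [f1]
      omega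
    · have f1 : ((range m).filter fun j => j < i ∧ s j ≠ true) =
          ((range m).filter fun j => j < i ∧ s j = false) := by
        apply filter_congr; intro j _; simp
      rw [f1]
  rw [card_filter_perm m σ]
  have e2 : ((range m).filter fun i => ∃ h : i < m,
      ((range m).filter fun w => 0 < a (σ ⟨i, h⟩ : ℕ) * b w - a w * b (σ ⟨i, h⟩ : ℕ)).card = k) =
      ((range m).filter fun i => HH m s i = k) := by
    ext i
    simp only [mem_filter, mem_range]
    constructor
    · rintro ⟨h1, h2, h3⟩
      exact ⟨h1, (hcount i h2).mp h3⟩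
    · rintro ⟨h1, h3⟩
      exact ⟨h1, h1, (hcount i h1).mpr h3⟩
  rw [e2]
  exact odd_median_steps k s

end Vale.Agent.P040.Sph52
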