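import Mathlib

/-!
# The number of positive halving turns about a fixed pivot is odd (abstract form)

`br p z` is the planar bracket of the projections of `p, z` along the pivot `q`; `nu p` is the line that
follows the line of `p` in the rotation about `q`.
-/

namespace Vale.Agent.P040.Sph52

open Finset

/-- for an injective self-map of a finite type the number of places where a predicate changes is even -/
theorem even_changes {V : Type*} [Fintype V] [DecidableEq V] (f : V → V) (hf : Function.Injective f)
    (W : V → Prop) [DecidablePred W] : Even (univ.filter fun p => ¬ (W (f p) ↔ W p)).card := by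
  classical
  have hb : Function.Bijective f := Finite.injective_iff_bijective.1 hf
  have e1 : (univ.filter fun p => W (f p)).card = (univ.filter fun p => W p).card := by
    apply Finset.card_bij (fun p _ => f p)
    · intro p hp
      simpa using hp
    · intro a _ b _ h
      exact hf h
    · intro b hb'
      obtain ⟨a, rfl⟩ := hb.2 b
      exact ⟨a, by simpa using hb', rfl⟩
  have e2 : (univ.filter fun p => W (f p)).card =
      (univ.filter fun p => W (f p) ∧ W p).card + (univ.filter fun p => W (f p) ∧ ¬ W p).card := by
    rw [← Finset.card_filter_add_card_filter_not (s := univ.filter fun p => W (f p)) (fun p => W p)]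
    simp only [Finset.filter_filter]
  have e3 : (univ.filter fun p => W p).card =
      (univ.filter fun p => W (f p) ∧ W p).card + (univ.filter fun p => ¬ W (f p) ∧ W p).card := by
    rw [← Finset.card_filter_add_card_filter_not (s := univ.filter fun p => W p) (fun p => W (f p))]
    simp only [Finset.filter_filter]
    congr 2 <;> ext p <;> simp only [mem_filter, mem_univ, true_and] <;> tauto
  have e4 : (univ.filter fun p => ¬ (W (f p) ↔ W p)).card =
      (univ.filter fun p => W (f p) ∧ ¬ W p).card + (univ.filter fun p => ¬ W (f p) ∧ W p).card := by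
    rw [← Finset.card_union_of_disjoint]
    · congr 1
      ext p
      simp only [mem_filter, mem_univ, true_and, mem_union]
      tauto
    · rw [Finset.disjoint_left]
      intro p hp hp'
      simp only [mem_filter, mem_univ, true_and] at hp hp'
      exact hp'.1 hp.1
  rw [e4]
  exact ⟨(univ.filter fun p => W (f p) ∧ ¬ W p).card, by omega⟩

lemma sign3 {a b c : ℝ} (h : 0 < a * b * c) : (0 < b ↔ (0 < a ↔ 0 < c)) := by
  have ha : a ≠ 0 := by rintro rfl; simp at h
  have hb : b ≠ 0 := by rintro rfl; simp at h
  have hc : c ≠ 0 := by rintro rfl; simp at h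
  rcases lt_or_gt_of_ne ha with ha | ha <;> rcases lt_or_gt_of_ne hb with hb | hb <;>
    rcases lt_or_gt_of_ne hc with hc | hc
  · exact absurd h (lt_asymm (mul_neg_of_pos_of_neg (mul_pos_of_neg_of_neg ha hb) hc))
  · have := lt_asymm ha; have := lt_asymm hb; tauto
  · have := lt_asymm ha; have := lt_asymm hc; tauto
  · exact absurd h (lt_asymm (mul_neg_of_neg_of_pos (mul_neg_of_neg_of_pos ha hb) hc))
  · have := lt_asymm hb; have := lt_asymm hc; tauto
  · exact absurd h (lt_asymm (mul_neg_of_neg_of_pos (mul_neg_of_pos_of_neg ha hb) hc))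
  · exact absurd h (lt_asymm (mul_neg_of_pos_of_neg (mul_pos ha hb) hc))
  · tauto

section main

variable {V : Type*} [Fintype V] [DecidableEq V] {k : ℕ} {q : V} {br : V → V → ℝ}

omit [Fintype V] [DecidableEq V] in
lemma br_self (hanti : ∀ p z, br p z = - br z p) (p : V) : br p p = 0 := by
  have := hanti p p
  linarith

/-- positive and negative side of a line -/
lemma card_pos_add_neg (hV : Fintype.card V = 2 * k + 1) (hanti : ∀ p z, br p z = - br z p)
    (hq : ∀ p, br p q = 0) (hne : ∀ p z, p ≠ q → z ≠ q → p ≠ z → br p z ≠ 0) {p : V} (hp : p ≠ q) :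
    (univ.filter fun z => 0 < br p z).card + (univ.filter fun z => br p z < 0).card + 2 = 2 * k + 1 := by
  have h1 : (univ : Finset V) =
      insert p (insert q ((univ.filter fun z => 0 < br p z) ∪ (univ.filter fun z => br p z < 0))) := by
    ext z
    simp only [mem_univ, mem_insert, mem_union, mem_filter, true_and, true_iff]
    by_cases hz : z = p
    · exact Or.inl hz
    · by_cases hz' : z = q
      · exact Or.inr (Or.inl hz')
      · rcases lt_or_gt_of_ne (hne p z hp hz' (Ne.symm hz)) with h2 | h2
        · exact Or.inr (Or.inr (Or.inr h2))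
        · exact Or.inr (Or.inr (Or.inl h2))
  have h2 : q ∉ ((univ.filter fun z => 0 < br p z) ∪ (univ.filter fun z => br p z < 0)) := by
    simp only [mem_union, mem_filter, mem_univ, true_and, hq p, lt_irrefl, or_self,
      not_false_eq_true]
  have h3 : p ∉ insert q ((univ.filter fun z => 0 < br p z) ∪ (univ.filter fun z => br p z < 0)) := by
    simp only [mem_insert, mem_union, mem_filter, mem_univ, true_and, br_self hanti p, lt_irrefl,
      or_self, or_false]
    exact hp
  have h4 : Disjoint (univ.filter fun z => 0 < br p z) (univ.filter fun z => br p z < 0) := by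
    rw [disjoint_left]
    intro z hz hz'
    simp only [mem_filter, mem_univ, true_and] at hz hz'
    exact lt_asymm hz hz'
  have h5 := congrArg Finset.card h1
  rw [card_insert_of_notMem h3, card_insert_of_notMem h2, card_union_of_disjoint h4, card_univ, hV] at h5
  omega

/-- a negative turn exchanges the sides -/
lemma card_turn_neg (hanti : ∀ p z, br p z = - br z p) (hq : ∀ p, br p q = 0) {p r : V}
    (h3 : ∀ z, z ≠ p → z ≠ q → z ≠ r → 0 < br p z * br r z * br p r) (hpr : br p r < 0) :
    (univ.filter fun z => br r z < 0).card = (univ.filter fun z => 0 < br p z).card := by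
  congr 1
  ext z
  simp only [mem_filter, mem_univ, true_and]
  by_cases hz : z = p
  · subst hz
    rw [br_self hanti z, hanti r z]
    constructor
    · intro h; linarith
    · intro h; exact absurd h (lt_irrefl _)
  by_cases hz' : z = q
  · subst hz'
    rw [hq, hq]
  by_cases hz'' : z = r
  · subst hz''
    rw [br_self hanti z]
    constructor
    · intro h; exact absurd h (lt_irrefl _)
    · intro h; exact absurd h (lt_asymm hpr)
  have h := sign3 (h3 z hz hz' hz'')
  have hb : br r z ≠ 0 := by
    intro h0
    have := h3 z hz hz' hz''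
    rw [h0] at this
    simp at this
  have hn := lt_asymm hpr
  constructor
  · intro h1
    have := lt_asymm h1
    tauto
  · intro h1
    rcases lt_or_gt_of_ne hb with h2 | h2
    · exact h2
    · tauto

/-- a positive turn removes the new line from the positive side -/
lemma card_turn_pos (hanti : ∀ p z, br p z = - br z p) (hq : ∀ p, br p q = 0) {p r : V} (hrq : r ≠ q)
    (h3 : ∀ z, z ≠ p → z ≠ q → z ≠ r → 0 < br p z * br r z * br p r) (hpr : 0 < br p r) :
    (univ.filter fun z => 0 < br p z).card = (univ.filter fun z => 0 < br r z).card + 1 := by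
  have h1 : (univ.filter fun z => 0 < br p z) = insert r (univ.filter fun z => 0 < br r z) := by
    ext z
    simp only [mem_filter, mem_univ, true_and, mem_insert]
    by_cases hz'' : z = r
    · subst hz''
      simp [hpr]
    by_cases hz : z = p
    · subst hz
      rw [br_self hanti z, hanti r z]
      constructor
      · intro h; exact absurd h (lt_irrefl _)
      · rintro (h | h)
        · exact absurd h hz''
        · linarith
    by_cases hz' : z = q
    · subst hz'
      rw [hq, hq]
      simp [hz'']
    have h := sign3 (h3 z hz hz' hz'')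
    tauto
  have h2 : r ∉ (univ.filter fun z => 0 < br r z) := by
    simp [br_self hanti r]
  rw [h1, card_insert_of_notMem h2]

omit [Fintype V] [DecidableEq V] in
/-- arithmetic of one step of the rotating line -/
lemma keyT {k a b : ℕ} {dp dr s : Prop} [Decidable dp] [Decidable dr] (l1 : a + 2 ≤ 2 * k + 1)
    (l2 : b + 2 ≤ 2 * k + 1) (tneg : ¬ s → b + a + 2 = 2 * k + 1) (tpos : s → a = b + 1)
    (dT : dr ↔ (dp ↔ s)) :
    ¬ (k ≤ (if dr then b else 2 * k - 1 - b) ↔ k ≤ (if dp then a else 2 * k - 1 - a)) ↔
      (a = k ∧ s) := by
  by_cases hs : s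
  · have h := tpos hs
    by_cases hd : dp
    · have hd' : dr := by tauto
      simp only [if_pos hd, if_pos hd', hs, and_true]
      omega
    · have hd' : ¬ dr := by tauto
      simp only [if_neg hd, if_neg hd', hs, and_true]
      omega
  · have h := tneg hs
    by_cases hd : dp
    · have hd' : ¬ dr := by tauto
      simp only [if_pos hd, if_neg hd', hs, and_false, iff_false, not_not]
      omega
    · have hd' : dr := by tauto
      simp only [if_neg hd, if_pos hd', hs, and_false, iff_false, not_not]
      omega

omit [Fintype V] [DecidableEq V] in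
/-- arithmetic of the exceptional step -/
lemma keyU {k a b : ℕ} {dp dr s : Prop} [Decidable dp] [Decidable dr] (l1 : a + 2 ≤ 2 * k + 1)
    (l2 : b + 2 ≤ 2 * k + 1) (tneg : ¬ s → b + a + 2 = 2 * k + 1) (tpos : s → a = b + 1)
    (dT : dr ↔ ¬ (dp ↔ s)) :
    ¬ (k ≤ (if dr then b else 2 * k - 1 - b) ↔ k ≤ (if dp then a else 2 * k - 1 - a)) ↔
      ¬ (a = k ∧ s) := by
  by_cases hs : s
  · have h := tpos hs
    by_cases hd : dp
    · have hd' : ¬ dr := by tauto
      simp only [if_pos hd, if_neg hd', hs, and_true]
      omega
    · have hd' : dr := by tauto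
      simp only [if_neg hd, if_pos hd', hs, and_true]
      omega
  · have h := tneg hs
    by_cases hd : dp
    · have hd' : dr := by tauto
      simp only [if_pos hd, if_pos hd', hs, and_false, not_false_eq_true, iff_true]
      omega
    · have hd' : ¬ dr := by tauto
      simp only [if_neg hd, if_neg hd', hs, and_false, not_false_eq_true, iff_true]
      omega

omit [Fintype V] in
/-- the successor map is injective -/
lemma succ_inj (hanti : ∀ p z, br p z = - br z p) (nu : V → V)
    (h1 : ∀ p, p ≠ q → nu p ≠ p) (h2 : ∀ p, p ≠ q → nu p ≠ q)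
    (h3 : ∀ p, p ≠ q → ∀ z, z ≠ p → z ≠ q → z ≠ nu p → 0 < br p z * br (nu p) z * br p (nu p)) :
    Function.Injective (fun p => if p = q then q else nu p) := by
  intro p p' h
  by_cases hp : p = q
  · by_cases hp' : p' = q
    · rw [hp, hp']
    · simp only [hp, hp', if_true, if_false] at h
      exact absurd h.symm (h2 p' hp')
  · by_cases hp' : p' = q
    · simp only [hp, hp', if_true, if_false] at h
      exact absurd h (h2 p hp)
    · simp only [hp, hp', if_false] at h
      by_contra hne'
      have a1 := h3 p hp p' (Ne.symm hne') hp' (by rw [h]; exact (h1 p' hp').symm)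
      have a2 := h3 p' hp' p hne' hp (by rw [← h]; exact (h1 p hp).symm)
      rw [← h] at a2
      rw [hanti p' p, hanti (nu p) p, hanti p' (nu p)] at a2
      nlinarith

/-- the final count -/
lemma odd_of_keys (f : V → V) (finj : Function.Injective f) (W A : V → Prop) {u : V} (hu : u ≠ q)
    (fq : f q = q) (key1 : ∀ p, p ≠ q → p ≠ u → (¬ (W (f p) ↔ W p) ↔ A p))
    (key2 : ¬ (W (f u) ↔ W u) ↔ ¬ A u) [DecidablePred A] :
    Odd (univ.filter fun p => p ≠ q ∧ A p).card := by
  classical
  have hE := even_changes f finj W
  set T0 := univ.filter fun p => p ≠ q ∧ p ≠ u ∧ A p with hT0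
  have huT0 : u ∉ T0 := by simp [hT0]
  by_cases hA : A u
  · have e1 : (univ.filter fun p => ¬ (W (f p) ↔ W p)) = T0 := by
      ext p
      simp only [mem_filter, mem_univ, true_and, hT0]
      by_cases hp : p = q
      · subst hp
        simp [fq]
      by_cases hpu : p = u
      · subst hpu
        rw [key2]
        tauto
      · rw [key1 p hp hpu]
        tauto
    have e2 : (univ.filter fun p => p ≠ q ∧ A p) = insert u T0 := by
      ext p
      simp only [mem_filter, mem_univ, true_and, hT0, mem_insert]
      by_cases hpu : p = u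
      · subst hpu
        tauto
      · tauto
    rw [e2, card_insert_of_notMem huT0, ← e1]
    exact hE.add_one
  · have e1 : (univ.filter fun p => ¬ (W (f p) ↔ W p)) = insert u T0 := by
      ext p
      simp only [mem_filter, mem_univ, true_and, hT0, mem_insert]
      by_cases hp : p = q
      · subst hp
        simp [fq, Ne.symm hu]
      by_cases hpu : p = u
      · subst hpu
        rw [key2]
        tauto
      · rw [key1 p hp hpu]
        tauto
    have e2 : (univ.filter fun p => p ≠ q ∧ A p) = T0 := by
      ext p
      simp only [mem_filter, mem_univ, true_and, hT0]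
      by_cases hpu : p = u
      · subst hpu
        tauto
      · tauto
    rw [e1, card_insert_of_notMem huT0] at hE
    rw [e2]
    rcases hE with ⟨m, hm⟩
    exact ⟨m - 1, by omega⟩

/-- **The number of positive halving turns about the pivot `q` is odd.** -/
theorem odd_turns (hV : Fintype.card V = 2 * k + 1) (hk : 0 < k) (q : V) (br : V → V → ℝ)
    (hanti : ∀ p z, br p z = - br z p) (hq : ∀ p, br p q = 0)
    (hne : ∀ p z, p ≠ q → z ≠ q → p ≠ z → br p z ≠ 0) (nu : V → V)
    (h1 : ∀ p, p ≠ q → nu p ≠ p) (h2 : ∀ p, p ≠ q → nu p ≠ q)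
    (h3 : ∀ p, p ≠ q → ∀ z, z ≠ p → z ≠ q → z ≠ nu p → 0 < br p z * br (nu p) z * br p (nu p)) :
    Odd (univ.filter fun p => p ≠ q ∧ (univ.filter fun z => 0 < br p z).card = k ∧
      0 < br p (nu p)).card := by
  classical
  obtain ⟨u, hu⟩ : ∃ u, u ≠ q := by
    have : 1 < Fintype.card V := by omega
    exact Fintype.exists_ne_of_one_lt_card this q
  have PN : ∀ p, p ≠ q → (univ.filter fun z => 0 < br p z).card +
      (univ.filter fun z => br p z < 0).card + 2 = 2 * k + 1 :=
    fun p hp => card_pos_add_neg hV hanti hq hne hp
  have tneg : ∀ p, p ≠ q → ¬ 0 < br p (nu p) → (univ.filter fun z => 0 < br (nu p) z).card +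
      (univ.filter fun z => 0 < br p z).card + 2 = 2 * k + 1 := by
    intro p hp h
    have h' : br p (nu p) < 0 :=
      lt_of_le_of_ne (not_lt.1 h) (hne p (nu p) hp (h2 p hp) (h1 p hp).symm)
    have a := card_turn_neg hanti hq (h3 p hp) h'
    have b := PN (nu p) (h2 p hp)
    rw [a] at b
    exact b
  have tpos : ∀ p, p ≠ q → 0 < br p (nu p) → (univ.filter fun z => 0 < br p z).card =
      (univ.filter fun z => 0 < br (nu p) z).card + 1 :=
    fun p hp h => card_turn_pos hanti hq (h2 p hp) (h3 p hp) h
  have Ple : ∀ p, p ≠ q → (univ.filter fun z => 0 < br p z).card + 2 ≤ 2 * k + 1 := fun p hp => by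
    have := PN p hp
    omega
  have dirT : ∀ p, p ≠ q → p ≠ u →
      ((nu p = u ∨ 0 < br (nu p) u) ↔ ((p = u ∨ 0 < br p u) ↔ 0 < br p (nu p))) := by
    intro p hp hpu
    by_cases hr : nu p = u
    · simp only [hr, hpu, true_or, false_or]
    · have := sign3 (h3 p hp u (Ne.symm hpu) hu (Ne.symm hr))
      simp only [hr, hpu, false_or]
      exact this
  have dirU : (nu u = u ∨ 0 < br (nu u) u) ↔ ¬ ((True ∨ 0 < br u u) ↔ 0 < br u (nu u)) := by
    have h := h1 u hu
    have h' := hne u (nu u) hu (h2 u hu) h.symm
    simp only [h, false_or, true_or, true_iff]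
    rw [hanti (nu u) u]
    constructor
    · intro h4 h5
      linarith
    · intro h4
      have : br u (nu u) < 0 := lt_of_le_of_ne (not_lt.1 h4) h'
      linarith
  refine odd_of_keys (q := q) (fun p => if p = q then q else nu p) (succ_inj hanti nu h1 h2 h3)
    (fun p => k ≤ (if (p = u ∨ 0 < br p u) then (univ.filter fun z => 0 < br p z).card
      else 2 * k - 1 - (univ.filter fun z => 0 < br p z).card))
    (fun p => (univ.filter fun z => 0 < br p z).card = k ∧ 0 < br p (nu p)) hu (by simp) ?_ ?_
  · intro p hp hpu
    simp only [hp, if_false]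
    exact keyT (Ple p hp) (Ple (nu p) (h2 p hp)) (tneg p hp) (tpos p hp) (dirT p hp hpu)
  · simp only [hu, if_false]
    exact keyU (Ple u hu) (Ple (nu u) (h2 u hu)) (tneg u hu) (tpos u hu) dirU

end main

end Vale.Agent.P040.Sph52
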